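import Vale.Agent.P144A.Stmt
import Vale.Agent.P144M13.DefsO

/-!
The spin field in a domain: the statements of the soft blocks.
-/

namespace Vale.Agent.N144

open Filter Topology Vale.Agent.P144 Vale.Agent.P144Z

/-- The rescaled correlations converge to `C`, locally uniformly on the set of configurations of
distinct points of `D`. -/
def LocLim (D : Set ℂ) (E : Fam) (C : Pts → ℝ) : Prop :=
  ∀ (n m : ℕ) (j : Fin m → Fin 2), TendstoLocallyUniformlyOn
    (fun (a : ℝ) (z : (Fin n → ℂ) × (Fin m → ℂ)) => corr a (E a) ⟨n, m, z.1, z.2, j⟩)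
    (fun z => C ⟨n, m, z.1, z.2, j⟩) (𝓝[>] 0) {z | Good D ⟨n, m, z.1, z.2, j⟩}

/-- The bound on the even spin correlations at all scales: points in a small ball deep in `D`. -/
def SepD (D : Set ℂ) (E : Fam) : Prop :=
  ∀ s > (0 : ℝ), ∀ n : ℕ, Even n → ∀ δ > (0 : ℝ), ∃ K T ε₀ : ℝ, 0 ≤ K ∧ 0 < T ∧ 0 < ε₀ ∧
    ∀ (a ε : ℝ) (z : ℂ) (x : Fin n → ℂ), 0 < a → T * a ≤ ε → ε ≤ ε₀ → Metric.ball z s ⊆ D →
      (∀ i, x i ∈ Metric.ball z ε) → (∀ i j, i ≠ j → δ * ε ≤ ‖x i - x j‖) →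
      |corr a (E a) ⟨n, 0, x, ![], ![]⟩| ≤ K * (ε ^ (-(1 / 8) : ℝ)) ^ n

/-- From the bound at all scales to the limit of the field. -/
def SoftStmt : Prop :=
  ∀ J > (0 : ℝ), ∀ (lam β Z Zε : ℝ) (V : Finset Site → ℝ) (D : TopologicalSpace.Opens ℂ)
    (b : Option (ℝ → Config)) (C : Pts → ℝ), IsPotential V → Bornology.IsBounded (D : Set ℂ) →
    StdBC b → 0 < Z → LocDiff D (crit J D b) (inDom J lam V β D b) Z Zε →
    SepD D (inDom J lam V β D b) → (∀ p, Good D p → p.m = 0 → Lim (crit J D b) p (C p)) →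
      P144M13.FieldLim D (inDom J lam V β D b) Z C

end Vale.Agent.N144
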