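import Vale.Agent.N144.DefsH

/-!
The spin field up to the boundary of a domain.
-/

namespace Vale.Agent.N144

open Filter Topology MeasureTheory TopologicalSpace Vale.Agent.P144 Vale.Agent.P144F58
open Vale.Agent.P144H

/-- For bounded measurable functions that vanish outside `D`, all mixed moments of the smeared
field converge to the integrals of `Z ^ n * C`. -/
def MomB (D : Set ℂ) (E : Fam) (Z : ℝ) (C : Pts → ℝ) : Prop :=
  ∀ n > 0, ∀ f : Fin n → ℂ → ℝ, (∀ i, Test (f i) ∧ Function.support (f i) ⊆ D) →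
    Integrable (fun x : Fin n → ℂ => (∏ i, f i (x i)) * C ⟨n, 0, x, ![], ![]⟩) ∧
    Tendsto (fun a => E a fun σ => ∏ i, smear a (f i) σ) (𝓝[>] 0)
      (𝓝 (Z ^ n * ∫ x : Fin n → ℂ, (∏ i, f i (x i)) * C ⟨n, 0, x, ![], ![]⟩))

/-- For such functions the smeared fields converge jointly in law, to the only law with these
moments. -/
def LawB (D : Set ℂ) (E : Fam) (Z : ℝ) (C : Pts → ℝ) : Prop :=
  ∀ (k : ℕ) (f : Fin k → ℂ → ℝ), (∀ i, Test (f i) ∧ Function.support (f i) ⊆ D) →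
    ∃ ν, HasMom Z C f ν ∧ (∀ ν', HasMom Z C f ν' → ν' = ν) ∧
      ∀ F : BoundedContinuousFunction (EuclideanSpace ℝ (Fin k)) ℝ,
        Tendsto (fun a => E a fun σ => F (WithLp.toLp 2 fun i => smear a (f i) σ)) (𝓝[>] 0)
          (𝓝 (∫ y, F y ∂ν))

/-- For every bounded open `U` inside `D` (for instance `D`) and every `s > 1 / 8` the space
`H^s_0(U)` exists, and the spin field converges in law in its dual `H^{-s}(U)`. -/
def FieldB (D : Set ℂ) (E : Fam) (Z : ℝ) (C : Pts → ℝ) : Prop :=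
  ∀ (U : Opens ℂ) (s : ℝ), Bornology.IsBounded (U : Set ℂ) → (U : Set ℂ) ⊆ D → 1 / 8 < s →
    (∃ (H : Type) (_ : NormedAddCommGroup H) (_ : InnerProductSpace ℝ H)
      (J : SmoothOn U →ₗ[ℝ] H), IsH0 s J) ∧
    ∀ (H : Type) [NormedAddCommGroup H] [InnerProductSpace ℝ H] (J : SmoothOn U →ₗ[ℝ] H),
      IsH0 s J → DualLim E Z C J

end Vale.Agent.N144
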