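import Vale.Agent.P144H.Defs

/-!
Convergence in law of the spin field in the local negative Sobolev spaces of a domain.
-/

namespace Vale.Agent.N144

open Filter Topology MeasureTheory TopologicalSpace Vale.Agent.P144 Vale.Agent.P144F58
open Vale.Agent.P144H

/-- The spin field of mesh `a` is a random element `X a` of the dual of `H`, and its law in `E`
converges weakly, for the dual norm, to the only law with the limiting moments. -/
def DualLim {U : Opens ℂ} {H : Type} [NormedAddCommGroup H] [InnerProductSpace ℝ H] (E : Fam)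
    (Z : ℝ) (C : Pts → ℝ) (J : SmoothOn U →ₗ[ℝ] H) : Prop :=
  ∃ X : ℝ → Config → StrongDual ℝ H,
    (∀ a > 0, @Measurable _ _ _ (borel _) (X a) ∧ ∀ σ f, X a σ (J f) = smear a f σ) ∧
    ∃ P, DualMom Z C J P ∧ (∀ P', DualMom Z C J P' → P' = P) ∧
      ∀ F : BoundedContinuousFunction (StrongDual ℝ H) ℝ,
        Tendsto (fun a => E a fun σ => F (X a σ)) (𝓝[>] 0) (𝓝 (∫ T, F T ∂P))

/-- For every bounded open `U` with closure in `D` and every `s > 1 / 8` the space `H^s_0(U)`
exists, and the spin field converges in law in its dual `H^{-s}(U)`. -/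
def FieldH (D : Set ℂ) (E : Fam) (Z : ℝ) (C : Pts → ℝ) : Prop :=
  ∀ (U : Opens ℂ) (s : ℝ), Bornology.IsBounded (U : Set ℂ) → closure (U : Set ℂ) ⊆ D → 1 / 8 < s →
    (∃ (H : Type) (_ : NormedAddCommGroup H) (_ : InnerProductSpace ℝ H)
      (J : SmoothOn U →ₗ[ℝ] H), IsH0 s J) ∧
    ∀ (H : Type) [NormedAddCommGroup H] [InnerProductSpace ℝ H] (J : SmoothOn U →ₗ[ℝ] H),
      IsH0 s J → DualLim E Z C J

end Vale.Agent.N144
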