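import Vale.Agent.P144U.Rg.Defs

/-!
The spin field in a domain: the statements of the lattice blocks.
-/

namespace Vale.Agent.N144

open Finset Matrix Vale.Agent.P144Z

/-- The operator of the field `A` has a gap `1 / x`. -/
def Gap {M : ℕ} [NeZero M] (A : Gauge M) (x : ℝ) : Prop :=
  ∀ φ, φ ⬝ᵥ φ ≤ x ^ 2 * ((Dm A *ᵥ φ) ⬝ᵥ (Dm A *ᵥ φ))

/-- A small cluster of fluxes deep in the region keeps the gap. -/
def GapMS : Prop :=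
  ∀ Γ : ℝ, 1 ≤ Γ → ∀ Λ₁ : ℕ, ∃ Γ' : ℝ, Γ ≤ Γ' ∧ ∃ K₀ : ℕ, ∀ (M : ℕ) [NeZero M] (A B : Gauge M)
    (c : Tor M) (r R ρ : ℕ), IsW A → (∀ e, tdist e.1 c ≤ ρ → A e = 1) → Cluster B 1 c R r →
    (∃ f, flux B f = -1) → 256 ≤ r → r ≤ R → R ≤ Λ₁ * r → K₀ * R ≤ ρ → 16 * ρ ≤ M →
    Gap A (Γ * ρ) → Gap (A * B) (Γ' * ρ)

/-- The spin correlations of the nearest-neighbour model in the sectors of a region; `H` has the
weights of the strings to the holes, `B` those of the spins. -/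
def ZeroMS : Prop :=
  ∀ n : ℕ, ∃ C : ℝ, 0 ≤ C ∧ ∀ (M : ℕ) [NeZero M] (Λ : Finset (ℤ × ℤ)) (fr : Bool) (T r ρ H : ℕ)
    (x : Fin n → ℤ × ℤ) (a c : ℤ × ℤ) (hs : Fin H → ℤ × ℤ) (S : Finset (Fin H)), Even n →
    Holes Λ T ρ a hs → Spins Λ r x → zd c 0 ≤ T → (fr = true → H = 0) → 1 ≤ r → 1 ≤ ρ →
    64 * T ≤ M →
      |Zw par0 ((regOf M Λ fr).pw * holeG M a hs S * spinG M c x) 1| ≤
        C * (r : ℝ) ^ (-((n : ℝ) / 8)) * |Zw par0 (regOf M Λ fr).pw 1|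

open Classical in
/-- Weights `P`, strings `H` to the holes, and a cluster `B` of fluxes at the scale `J` deep in a
region that is good up to the scale `J'`. -/
structure DomMS (Q : Cls) {M : ℕ} [NeZero M] (P H B : Gauge M) (c : Tor M) (L J J' N Λ Λ₁ : ℕ)
    (Γ : ℝ) : Prop where
  P_ok : IsP P
  str : Str P H (64 * sc L J')
  nofl : ∀ f, flux (P * H) f ≠ -1
  lo : 1024 * sc L J' ≤ M
  hi : M ≤ Λ * sc L J'
  bd : Q M (P * H) J'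
  bd0 : Q M P J'
  gap0 : Gap P (Γ * sc L J')
  gap : Gap (P * H * B) (Γ * sc L J')
  one : ∀ e, tdist e.1 c ≤ 64 * sc L J' → P e = 1 ∧ H e = 1
  cl : Cluster B 1 c (Λ₁ * sc L J) (16 * sc L J)
  cnt : (univ.filter fun f => flux B f = -1).card ≤ N

/-- The contour sum with a small cluster of fluxes is bounded by the one of the
nearest-neighbour model, uniformly in the ratio of the two scales. -/
def MSMain (Q : Cls) (q : Par) (L : ℕ) (σ γ : ℝ) : Prop :=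
  ∀ (N Λ Λ₁ : ℕ) (Γ : ℝ), 1 ≤ Γ → ∃ C : ℝ, 0 ≤ C ∧ ∃ J₀ p₀ : ℕ, ∀ J ≥ J₀, ∀ J' ≥ J + p₀,
    ∀ (M : ℕ) [NeZero M] (P H B : Gauge M) (c : Tor M) (u : Cor M) (K : ℝ),
    DomMS Q P H B c L J J' N Λ Λ₁ Γ → u.Ok → u.Wt σ γ → u.Off P → 0 ≤ K →
    |Zw par0 (P * H * B) 1| ≤ K * |Zw par0 P 1| →
      |ZwC q u (P * H * B) 1| ≤ C * K * |ZwC q u P 1|

/-- The bound holds for corrections a little larger than those of the regions. -/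
def UnivMS (Q : Cls) (q : Par) (L : ℕ) : Prop :=
  ∃ σ γ θ : ℝ, 0 ≤ σ ∧ 0 < θ ∧ (∀ (M : ℕ) [NeZero M] (R : Reg M),
    (R.cor q).Ok ∧ (R.cor q).Off R.pw ∧ (R.cor q).Wt σ γ) ∧ MSMain Q q L σ (γ + θ)

/-- The bound for the classes `QU`. -/
def GenMS : Prop :=
  ∃ ε₀ > (0 : ℝ), ∀ ε > (0 : ℝ), ε ≤ ε₀ → ∃ L₀ : ℕ, ∀ L ≥ L₀, ∃ kf : ℕ → ℕ, ∃ η₀ > (0 : ℝ),
    ∀ R : ℕ, ∃ δ₀ > (0 : ℝ), ∀ q : Par, q.R = R → Crit L q η₀ δ₀ →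
      ∀ N k, kf N ≤ k → UnivMS (QU L ε k N) q L

open P144 in
/-- The bound on the even spin correlations at all scales, on the lattice. -/
def MSLat (Raw : Finset Site → ℕ → Prop) (q : Par) : Prop :=
  ∀ J lam β : ℝ, 0 < J → q.μ = β * lam → q.x = Real.exp (-(2 * β * J)) →
    ∀ n Λ₀ Λ₁ : ℕ, Even n → ∃ C : ℝ, 0 ≤ C ∧ ∃ r₀ K₀ : ℕ, ∀ (r R ρ : ℕ) (Λ : Finset Site)
      (b : Option Config) (c : Site) (x : Fin n → Site), (b = none ∨ b = some fun _ => true) →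
      Raw Λ ρ → (∀ v ∈ Λ, zd v 0 ≤ Λ₀ * ρ) → (∀ v, zd v c ≤ ρ → v ∈ Λ) →
      (∀ i, zd (x i) c ≤ R) → (∀ i i', i ≠ i' → r < zd (x i) (x i')) → r₀ ≤ r → r ≤ R →
      R ≤ Λ₁ * r → K₀ * R ≤ ρ →
        |gibbs J lam q.V β b Λ fun σ => ∏ i, sp (σ (x i))| ≤ C * (r : ℝ) ^ (-((n : ℝ) / 8))

end Vale.Agent.N144
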